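import Vale.Agent.P338.R2.H806.Fp.Star

/-!
P338, stage 2: the complete program, with an unbounded number of phases.
-/

namespace Vale.Agent.P338.R2.H806.Fp

open Vale.Agent.P338.R2.H898
open Vale.Agent.P338.R2.H968
open Vale.Agent.P338.R2.H784
open Vale.Agent.P338.R2.H784.Fp
open Vale.Agent.P338.R2.H101 (Lp)
open Vale.Agent.P338.R2.H968.CallEnv (mem0 callC)
open Vale.Agent.P338.R2.H525 (dBits)
open Vale.Agent.P338.R2.H207 (extM)
open Function (update)

set_option linter.unusedSectionVars false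

theorem Lp.le {T₀ : ℕ → ℕ} {c l k h₀ h V : ℕ} (hp : Lp T₀ c l k h₀ h V) : h ≤ h₀ := by
  induction hp with
  | zero => exact le_rfl
  | succ _ h1 h2 _ ih =>
    have := log_dec h1 h2
    omega

section top

variable {M F α : Type} [DecidableEq F] {d u : α} {j : TF → F} {RR : Store M F α → Prop}

/-- The complete program transposes. -/
theorem run_topS [DecidableEq α] {rd nrp f2 : Prog M F α} {T2 TA T₀ : ℕ → ℕ} {c1 cn c2 : ℕ}
    {enc : Letter → α} {NN : ℕ → ℕ → ℕ → ℕ} (henc : Function.Injective enc)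
    (hj : Function.Injective j)
    (hRR : ∀ s s' : Store M F α, RR s → s'.m = s.m → (∀ f, (∀ x, f ≠ j x) → s'.z f = s.z f) →
      RR s')
    {m0 : M} (hRR0 : ∀ s : Store M F α, s.m = m0 → (∀ f, (∀ x, f ≠ j x) → s.z f = ⟨[], []⟩) →
      RR s)
    (hround : RoundSpec d u (fun b => enc (bitL b)) j rd RR T2 c1)
    (hf2 : StarSpec d u (fun b => enc (bitL b)) j f2 RR TA T₀ c2)
    (hnr : NrSpec d u j nrp NN cn) (hNN : ∀ l r s, 576 * 4 ^ l ≤ NN l r s)
    {r s : ℕ} (hr : 1 ≤ r) (hs : 1 ≤ s) (N : Fin r → Fin s → Bool) {l : ℕ}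
    (hl : l = Nat.clog 2 (max r s)) :
    ∃ k t t2 h' V s', h' < 32 ∧ Lp T₀ c2 l k l h' V ∧
      t2 ≤ c2 * ((k + 1) * (TA (NN l r s) + NN l r s + 4 ^ l) + V) ∧
      Tot (T2 (NN l r s)) (NN l r s) (4 ^ l) (c1 + 36) (120 + 12) h' t ∧
      Prog.Run d (topProg2 j enc u rd nrp f2) (ini j enc (matWord N) m0)
        (t + t2 + (cn + 140) * 4 ^ l) s' ∧
      (s'.z (j .fout)).full = (matWord fun a b => N b a).map enc := by
  have hle : max r s ≤ 2 ^ l := by
    rw [hl]
    exact Nat.le_pow_clog (by norm_num) _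
  have hrl : r ≤ 2 ^ l := (le_max_left _ _).trans hle
  have hsl : s ≤ 2 ^ l := (le_max_right _ _).trans hle
  have hl2 : l < 4 ^ l := Nat.lt_pow_self (by norm_num)
  -- the input phase
  have p1 := (H207.run_parse (d := d) m0 enc henc u hr N l hl).map (M := M) (L := Lens.idL M)
    (hj.comp jPF_inj) (S := ini j enc (matWord N) m0) (by
      unfold Store.pull ini
      congr 1
      funext f
      cases f <;> simp [jPF, H207.pst, hj.eq_iff])
  set S1 : Store M F α := (ini j enc (matWord N) m0).put (Lens.idL M) (j ∘ jPF)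
    ⟨m0, H207.pst ⟨[], []⟩ ⟨[], (H525.dBits l l (extM N)).map fun b => enc (bitL b)⟩
        ⟨[], List.replicate r u⟩ ⟨[], List.replicate s u⟩ ⟨[], List.replicate (2 ^ l) u⟩
        ⟨[], List.replicate (2 ^ l) u⟩ ⟨[], List.replicate l u⟩⟩ with hS1
  have z1 : ∀ x, S1.z (j (jPF x)) = H207.pst ⟨[], []⟩
        ⟨[], (H525.dBits l l (extM N)).map fun b => enc (bitL b)⟩
        ⟨[], List.replicate r u⟩ ⟨[], List.replicate s u⟩ ⟨[], List.replicate (2 ^ l) u⟩
        ⟨[], List.replicate (2 ^ l) u⟩ ⟨[], List.replicate l u⟩ x := fun x =>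
    Store.put_z_apply (hj.comp jPF_inj) _ _ x
  have z1' : ∀ f, (∀ x, j (jPF x) ≠ f) → S1.z f = ⟨[], []⟩ := by
    intro f hf
    rw [hS1, Store.put_z_of_notMem (ι := j ∘ jPF) _ _ hf]
    unfold ini
    have : f ≠ j .fin := fun h => hf .fin h.symm
    simp [this]
  have z1'' : ∀ x, (∀ y, jPF y ≠ x) → S1.z (j x) = ⟨[], []⟩ := by
    intro x hx
    exact z1' _ fun y hy => hx y (hj hy)
  -- the size of the multiplications
  obtain ⟨S2, p2, q2, m2, k2⟩ := hnr l r s S1 hr hs hrl hsl (z1 .n1) (z1 .n2) (z1 .w) (z1 .w2)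
    (z1'' .nr (by decide)) (z1'' .q (by decide)) (z1'' .t (by decide))
  have k2' : ∀ x, x ≠ .nr → S2.z (j x) = S1.z (j x) := fun x hx =>
    k2 _ fun h => hx (hj h)
  -- the loop variable
  obtain ⟨S3, p3, q3, e3, k3⟩ := tri_cpU (d := d) (u := u) (a := j .el) (b := j .hh)
    (fun h => by simpa using hj h) (s := S2) (n := l) (by
      rw [k2' .el (by decide)]
      exact z1 .el)
  have hz3 : ∀ x, x ≠ .nr → x ≠ .hh → x ≠ .el → S3.z (j x) = S1.z (j x) := by
    intro x h1 h2 h4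
    rw [k3.z (by simp [hj.eq_iff, h2, h4]), k2' x h1]
  have hrr3 : RR S3 := by
    apply hRR0
    · rw [k3.1, m2]
      rfl
    intro f hf
    rw [k3.z (by simp [hf]), k2 f (hf _)]
    exact z1' f fun x hx => hf _ hx.symm
  have hst3 : Rst j RR u l (NN l r s) r s S3 := by
    refine ⟨e3, k3.len (by simp [hj.eq_iff]) q2, ?_, ?_, ?_, ?_, ?_, ?_, ?_, ?_, hrr3⟩
    · rw [hz3 _ (by decide) (by decide) (by decide)]; exact z1 .w
    · rw [hz3 _ (by decide) (by decide) (by decide)]; exact z1 .n1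
    · rw [hz3 _ (by decide) (by decide) (by decide)]; exact z1 .n2
    · rw [hz3 _ (by decide) (by decide) (by decide)]; exact z1'' .fout (by decide)
    · rw [hz3 _ (by decide) (by decide) (by decide)]; exact z1'' .a (by decide)
    · rw [hz3 _ (by decide) (by decide) (by decide)]; exact z1'' .b (by decide)
    · rw [hz3 _ (by decide) (by decide) (by decide)]; exact z1'' .c (by decide)
    · rw [hz3 _ (by decide) (by decide) (by decide)]; exact z1'' .e (by decide)
  -- the rounds over `F_p`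
  obtain ⟨k, t2, h', V, hh', hPh, ht2, S3', p3', d3', hh3', clk3', k3', rr3'⟩ :=
    hf2 l (NN l r s)
    (extM N) S3 (hNN l r s) hst3.el q3 hst3.nr
    (by rw [hz3 _ (by decide) (by decide) (by decide)]; exact z1 .dat)
    (by rw [hz3 _ (by decide) (by decide) (by decide)]; exact z1'' .clk (by decide))
    (by rw [hz3 _ (by decide) (by decide) (by decide)]; exact z1'' .go (by decide)) hrr3
  obtain ⟨S4, p4, q4, g4, k4⟩ := tri_chk4 (d := d) (u := u) (f := j .hh) (go := j .go)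
    (fun h => by simpa using hj h) (s := S3') hh3' (by
      rw [k3' .go (by decide) (by decide) (by decide), k3.z (by simp [hj.eq_iff]),
        k2' .go (by decide)]
      exact z1'' .go (by decide))
  rw [Nat.zero_add] at q4 g4
  have hz4 : ∀ x, x ≠ .hh → x ≠ .go → x ≠ .dat → x ≠ .clk → S4.z (j x) = S3.z (j x) := by
    intro x h1 h2 h3 h4
    rw [k4.z (by simp [hj.eq_iff, h1, h2]), k3' x h3 h1 h4]
  have hst4 : Rst j RR u l (NN l r s) r s S4 := by
    refine ⟨?_, ?_, ?_, ?_, ?_, ?_, ?_, ?_, ?_, ?_, ?_⟩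
    · rw [hz4 _ (by decide) (by decide) (by decide) (by decide)]; exact hst3.el
    · rw [hz4 _ (by decide) (by decide) (by decide) (by decide)]; exact hst3.nr
    · rw [hz4 _ (by decide) (by decide) (by decide) (by decide)]; exact hst3.w
    · rw [hz4 _ (by decide) (by decide) (by decide) (by decide)]; exact hst3.n1
    · rw [hz4 _ (by decide) (by decide) (by decide) (by decide)]; exact hst3.n2
    · rw [hz4 _ (by decide) (by decide) (by decide) (by decide)]; exact hst3.fout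
    · rw [hz4 _ (by decide) (by decide) (by decide) (by decide)]; exact hst3.a
    · rw [hz4 _ (by decide) (by decide) (by decide) (by decide)]; exact hst3.b
    · rw [hz4 _ (by decide) (by decide) (by decide) (by decide)]; exact hst3.c
    · rw [hz4 _ (by decide) (by decide) (by decide) (by decide)]; exact hst3.e
    · exact hRR _ _ rr3' k4.1 fun f hf => k4.z (by simp [hf])
  -- the main loop
  obtain ⟨t, ht, S5, p5, q5⟩ := tri_topMain2 (d := d) (e := enc .hash) hj hRR hround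
    (hNN l r s) (extM N) (Lp.le hPh) hst4
    (by rw [k4.z (by simp [hj.eq_iff])]; exact d3') q4
    (k4.len (by simp [hj.eq_iff]) clk3') g4
  -- the output phase
  have p6 := (H207.run_unpad_dBits (d := d) S5.m enc hs N l hrl hsl
    (List.replicate (2 ^ l) u) (List.replicate r u) (List.replicate s u) (by simp) (by simp)
    (by simp)).map (M := M) (L := Lens.idL M) (hj.comp jUF_inj) (S := S5) (by
      unfold Store.pull
      congr 1
      funext f
      cases f
      · simp only [Function.comp, jUF, H207.ust, H207.atp_zero]; exact q5.dat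
      · simp only [Function.comp, jUF, H207.ust]; exact q5.rest.fout
      · simp only [Function.comp, jUF, H207.ust, H207.atp_zero]; exact q5.rest.w
      · simp only [Function.comp, jUF, H207.ust, H207.atp_zero]; exact q5.rest.n1
      · simp only [Function.comp, jUF, H207.ust, H207.atp_zero]; exact q5.rest.n2)
  refine ⟨k, t, t2, h', V, _, hh', hPh, ht2, ht,
    (p1.seq (p2.seq (p3.seq (p3'.seq (p4.seq (p5.seq p6)))))).mono ?_, ?_⟩
  · have e1 : (cn + 140) * 4 ^ l = cn * 4 ^ l + 140 * 4 ^ l := by ring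
    rw [e1]
    omega
  · have := Store.put_z_apply (hj.comp jUF_inj) (L := Lens.idL M) S5
      ⟨S5.m, H207.ust ((H525.dBits l 0 (extM N)).map fun b => enc (bitL b))
        (List.replicate (2 ^ l) u) (List.replicate r u) (List.replicate s u) (s * 2 ^ l) 0 0 0
        ((matWord fun j i => N i j).map enc)⟩ .out
    simp only [Function.comp, jUF] at this
    rw [this]
    simp [H207.ust, Zip.full]

end top

/-- The cost of the transposition of `r × s` matrices, in terms of the multiplication times: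
phases over `F_p` until the height is less than `32`. -/
def CostS (A A₀ : MTM) (n l c tB : ℕ) : Prop :=
  ∃ k h V : ℕ, Lp (mulTime A₀) c l k l h V ∧
    tB ≤ c * ((k + 1) * (mulTime A n + 4 ^ l + n) + V)

/-- The cost of the rounds from a small height. -/
theorem tot_le {l T N c : ℕ} {h t : ℕ} (ht : H778.Tot l T c c N h t) :
    t ≤ (h + 1) * (2 * c * (2 * T + N + 4 ^ l)) := by
  induction ht with
  | base h hh =>
    have e : (h + 1) * (2 * c * (2 * T + N + 4 ^ l)) = c * (h + 1) * 4 ^ l +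
      ((h + 1) * c * 4 ^ l + (h + 1) * (2 * c * (2 * T + N))) := by ring
    omega
  | stop h Ti h4 hTi hbig =>
    have e1 : c * (Ti + N + 4 ^ l) ≤ c * (2 * T + N + 4 ^ l) := Nat.mul_le_mul_left _ (by omega)
    have e2 : c * ((h + 1) / 2 + 1) * 4 ^ l ≤ h * (c * (2 * T + N + 4 ^ l)) := by
      calc c * ((h + 1) / 2 + 1) * 4 ^ l ≤ c * h * (2 * T + N + 4 ^ l) :=
            Nat.mul_le_mul (Nat.mul_le_mul_left _ (by omega)) (by omega)
        _ = h * (c * (2 * T + N + 4 ^ l)) := by ring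
    have e : (h + 1) * (2 * c * (2 * T + N + 4 ^ l)) = c * (2 * T + N + 4 ^ l) +
      h * (c * (2 * T + N + 4 ^ l)) + (h + 1) * (c * (2 * T + N + 4 ^ l)) := by ring
    omega
  | step h Ti t2 h4 hTi hsmall _ ih =>
    have e1 : c * (Ti + N + 4 ^ l) ≤ 2 * c * (2 * T + N + 4 ^ l) :=
      Nat.mul_le_mul (by omega) (by omega)
    have e2 : ((h + 1) / 2 + 1) * (2 * c * (2 * T + N + 4 ^ l)) ≤
        h * (2 * c * (2 * T + N + 4 ^ l)) := Nat.mul_le_mul_right _ (by omega)
    have e3 : (h + 1) * (2 * c * (2 * T + N + 4 ^ l)) =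
        h * (2 * c * (2 * T + N + 4 ^ l)) + 2 * c * (2 * T + N + 4 ^ l) := by ring
    omega

theorem tot_small {l T N c : ℕ} {h t : ℕ} (ht : H778.Tot l T c c N h t) (hh : h < 32)
    (c0 k V : ℕ) (hc : c0 = c) :
    c * (t + ((k + 1) * (T + N + 4 ^ l) + V)) ≤
      c0 * (128 * c0 + 1) * ((k + 1) * (T + 4 ^ l + N) + V) := by
  subst hc
  have h1 := tot_le ht
  have h0 : 2 * T + N + 4 ^ l ≤ 2 * (T + N + 4 ^ l) := by
    generalize 4 ^ l = q
    omega
  have h2 : (h + 1) * (2 * c0 * (2 * T + N + 4 ^ l)) ≤ 32 * (2 * c0 * (2 * (T + N + 4 ^ l))) :=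
    Nat.mul_le_mul (by omega) (Nat.mul_le_mul_left _ h0)
  have h3 : T + N + 4 ^ l ≤ (k + 1) * (T + N + 4 ^ l) := Nat.le_mul_of_pos_left _ (by omega)
  set Z := (k + 1) * (T + N + 4 ^ l) + V with hZ
  have h4 : (k + 1) * (T + 4 ^ l + N) + V = Z := by
    rw [hZ]
    ring
  rw [h4]
  have h5 : t ≤ 128 * c0 * Z := by
    calc t ≤ 32 * (2 * c0 * (2 * (T + N + 4 ^ l))) := h1.trans h2
      _ = 128 * c0 * (T + N + 4 ^ l) := by ring
      _ ≤ 128 * c0 * Z := Nat.mul_le_mul_left _ (by omega)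
  calc c0 * (t + Z) ≤ c0 * (128 * c0 * Z + Z) := Nat.mul_le_mul_left _ (by omega)
    _ = c0 * (128 * c0 + 1) * Z := by ring

theorem machine_of_specsS {A A₀ : MTM} {C₀ ρ : ℕ} {M F α : Type} [Finite M] [Fintype F]
    [DecidableEq F] [Finite α] [DecidableEq α] {d u : α} {enc : Letter → α} {dl : α → Letter}
    (hdl : ∀ a, dl (enc a) = a) (m0 : M) {j : TF → F} (hj : Function.Injective j)
    {RR : Store M F α → Prop}
    (hRR : ∀ s s' : Store M F α, RR s → s'.m = s.m → (∀ f, (∀ x, f ≠ j x) → s'.z f = s.z f) →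
      RR s')
    (hRR0 : ∀ s : Store M F α, s.m = m0 → (∀ f, (∀ x, f ≠ j x) → s.z f = ⟨[], []⟩) → RR s)
    {rd nrp f2 : Prog M F α} {c1 cn c2 : ℕ}
    (hround : RoundSpec d u (fun b => enc (bitL b)) j rd RR (fun n => 2 * mulTime A n) c1)
    (hf2 : StarSpec d u (fun b => enc (bitL b)) j f2 RR (mulTime A) (mulTime A₀) c2)
    (hnr : NrSpec d u j nrp (NN C₀ ρ) cn) :
    ∃ B : MTM, ∃ c : ℕ, ∀ r s : ℕ, 1 ≤ r → 1 ≤ s → ∀ N : Fin r → Fin s → Bool,
      B.Computes (matWord N) (matWord fun a b => N b a) ∧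
      CostS A A₀ (NN C₀ ρ (ex r s) r s) (ex r s) c (B.time (matWord N)) := by
  have henc : Function.Injective enc := fun a b h => by rw [← hdl a, ← hdl b, h]
  obtain ⟨B, hB⟩ := Comp.machine (M := M) (F := F) (α := α) d enc dl hdl m0 (j .fin) (j .fout)
    (topProg2 j enc u rd nrp f2)
  refine ⟨B, max ((8 * cn + 2000) * (c2 + 1)) (c1 + 36) *
    (128 * max ((8 * cn + 2000) * (c2 + 1)) (c1 + 36) + 1), fun r s hr hs N => ?_⟩
  obtain ⟨k, t, t2, h', V, s', hh', hPh, ht2, ht, hrun, hout⟩ := run_topS (d := d) (u := u) henc hj hRR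
    hRR0 hround hf2 hnr (fun l r s => le_max_right _ _) hr hs N (l := ex r s) rfl
  obtain ⟨h1, h2⟩ := hB (matWord N) (matWord fun a b => N b a) _ s' hrun hout
  have e11 : (8 * cn + 2000) * (c2 + 1) ≤ max ((8 * cn + 2000) * (c2 + 1)) (c1 + 36) :=
    le_max_left _ _
  have e12 : 2000 * (c2 + 1) ≤ (8 * cn + 2000) * (c2 + 1) := by nlinarith
  obtain ⟨t', htt', ht'⟩ := tot_mono (c := max ((8 * cn + 2000) * (c2 + 1)) (c1 + 36))
    (le_max_right _ _) (by omega) ht.conv
  have hbig : 2000 * (c2 + 1) ≤ max ((8 * cn + 2000) * (c2 + 1)) (c1 + 36) := e12.trans e11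
  refine ⟨h1, k, h', V, Lp.mono hPh ?_, (h2.trans ?_).trans (tot_small ht' hh' _ k V rfl)⟩
  · nlinarith
  have e1 := length_matWord_le hr N
  have e2 := length_matWord_le hs (fun a b => N b a)
  have e3 : r ≤ 2 ^ ex r s := le_two_pow_ex_left r s
  have e4 : s ≤ 2 ^ ex r s := le_two_pow_ex_right r s
  have e5 : (4 : ℕ) ^ ex r s = 2 ^ ex r s * 2 ^ ex r s := by
    rw [← mul_pow]
    norm_num
  have e6 : 1 ≤ 2 ^ ex r s := Nat.one_le_two_pow
  have e7 : r * (s + 1) ≤ 2 * 4 ^ ex r s := by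
    rw [e5]
    calc r * (s + 1) ≤ 2 ^ ex r s * (2 ^ ex r s + 2 ^ ex r s) :=
          Nat.mul_le_mul e3 (by omega)
      _ = 2 * (2 ^ ex r s * 2 ^ ex r s) := by ring
  have e8 : s * (r + 1) ≤ 2 * 4 ^ ex r s := by
    rw [e5]
    calc s * (r + 1) ≤ 2 ^ ex r s * (2 ^ ex r s + 2 ^ ex r s) :=
          Nat.mul_le_mul e4 (by omega)
      _ = 2 * (2 ^ ex r s * 2 ^ ex r s) := by ring
  have e9 : 1 ≤ 4 ^ ex r s := Nat.one_le_pow _ _ (by norm_num)
  set D := 4 ^ ex r s
  set n := NN C₀ ρ (ex r s) r s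
  have e10 : 8 * (t + t2 + (cn + 140) * D) + 4 * (matWord N).length +
      2 * (matWord fun a b => N b a).length + 13 ≤
      8 * t + 8 * t2 + (8 * cn + 1120 + 12 + 13) * D := by
    nlinarith
  refine e10.trans ((le_trans ?_ (Nat.mul_le_mul_right _ e11)))
  set Z := (k + 1) * (mulTime A n + n + D) + V with hZ
  have e14 : D ≤ Z := by
    have g1 : mulTime A n + n + D ≤ (k + 1) * (mulTime A n + n + D) :=
      Nat.le_mul_of_pos_left _ (by omega)
    rw [hZ]
    omega
  have e15 : (8 * cn + 1120 + 12 + 13) * D ≤ (8 * cn + 1145) * Z := Nat.mul_le_mul_left _ e14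
  have e16 : (8 * cn + 2000) * (c2 + 1) * (t' + Z) = (8 * cn + 2000) * t' + (8 * cn + 2000) * Z +
      c2 * (8 * cn + 2000) * t' + 8 * cn * (c2 * Z) + 2000 * (c2 * Z) := by ring
  have e17 : 8 * t ≤ (8 * cn + 2000) * t' := by nlinarith
  have e18 : (8 * cn + 1145) * Z ≤ (8 * cn + 2000) * Z := by nlinarith
  rw [e16]
  omega

/-- The reduction with an unbounded number of phases, given one phase over `F_p`. -/
theorem costS_of_ph {A A₀ : MTM} (hA : Multiplies A) {Y : Type} [Finite Y]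
    (hph : ∀ [DecidableEq (FF A.Tape Y)], ∃ (p : Prog (Mem A A₀) (FF A.Tape Y) (Al A A₀))
      (c : ℕ), PhSpec (dd A A₀) .u (fun b => Sy.l (bitL b)) (jj2 A.Tape Y) p (RQ2 A A₀ Y)
        (mulTime A) (mulTime A₀) c) (ρ : ℕ) :
    ∃ B : MTM, Transposes B ∧ ∃ c : ℕ, ∀ r s : ℕ, 1 ≤ r → 1 ≤ s → Near r s →
      ∀ N : Fin r → Fin s → Bool,
        CostS A A₀ (18432 * H898.mu r s + ρ) (ex r s) c (B.time (matWord N)) := by
  classical
  have := A.finTape
  have := A.finSym
  have := A₀.finSym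
  have iF : Fintype (FF A.Tape Y) := Fintype.ofFinite _
  obtain ⟨p, c1, hp⟩ := hph
  have hf2 := starSpec hp (jj2_inj A.Tape Y) RQ2_stable
  obtain ⟨B, c, hB⟩ := machine_of_specsS (A := A) (A₀ := A₀) (ρ := ρ) (C₀ := 18432)
    (M := Mem A A₀) (F := FF A.Tape Y) (α := Al A A₀) (d := dd A A₀) (u := .u) (enc := Sy.l)
    (dl := Sy.dl) (fun _ => rfl) (mem0 A, mem0 A₀) (jj2_inj A.Tape Y) RQ2_stable RQ2_init
    (roundSpec2 hA Y) hf2 (nrp_spec ρ (jj2_inj A.Tape Y))
  refine ⟨B, fun r s hr hs N => (hB r s hr hs N).1, c, fun r s hr hs h N => ?_⟩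
  have := (hB r s hr hs N).2
  rw [NN_of_near hr h] at this
  exact this


/-- The same for `A₀ = A`. -/
theorem costStar_of_ph {A : MTM} (hA : Multiplies A) {Y : Type} [Finite Y]
    (hph : ∀ [DecidableEq (FF A.Tape Y)], ∃ (p : Prog (Mem A A) (FF A.Tape Y) (Al A A))
      (c : ℕ), PhSpec (dd A A) .u (fun b => Sy.l (bitL b)) (jj2 A.Tape Y) p (RQ2 A A Y)
        (mulTime A) (mulTime A) c) (ρ : ℕ) :
    ∃ B : MTM, Transposes B ∧ ∃ c : ℕ, ∀ r s : ℕ, 1 ≤ r → 1 ≤ s → Near r s →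
      ∀ N : Fin r → Fin s → Bool,
        H101.CostStar A (18432 * H898.mu r s + ρ) (ex r s) c (B.time (matWord N)) :=
  costS_of_ph hA hph ρ

end Vale.Agent.P338.R2.H806.Fp
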