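import Vale.Agent.P338.R2.H806.Fp.XT

/-!
The pack pass of stage 2.
-/

namespace Vale.Agent.P338.R2.H806.Fp

open Vale.Agent.P338.R2.H898
open H525 (zeros)
open H525.Fp
open XP
open H806.LP (seg seg_flatMap seg_self flatMap_range_congr map_zeros)
open Function (update)

/-- The rulers: `C` has length `2 X`, `Y` has length `X`. -/
inductive PR
  | K | X | Y | C | G | E | L | W | Q
  deriving DecidableEq

/-- The rulers have the lengths of `D`. -/
structure Rul (m : PR → ℕ) (D : Dim) : Prop where
  mK : m .K = D.K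
  mX : m .X = D.X
  mY : m .Y = D.X
  mC : m .C = 2 * D.X
  mG : m .G = D.G
  mE : m .E = D.E
  mL : m .L = D.L
  mW : m .W = D.W
  mQ : m .Q = D.Q

variable {α J σ : Type} {m : PR → ℕ} {w : List α} {e : α} {S : XSem α J σ} {D : Dim}

/-- `E W` zeros -/
def zE (z : α) : XP PR α J := loop .E (loop .W (emit z))
/-- `R E W` zeros -/
def zR (z : α) : XP PR α J := loop .G (loop .C (zE z))

variable {v : PR → ℕ} {p : ℕ} {P : σ → Prop}

theorem xt_zE (h : Rul m D) (z : α) (hE : v .E = 0) (hW : v .W = 0) :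
    XT m w e S (zE z) v p 0 (List.replicate (D.E * D.W) z) P P :=
  (xt_loop_const (c := D.W) hE (fun i p => (xt_loop_emit (by simp [hW])).to rfl
    (by rw [h.mW]))).to rfl (by rw [h.mE])

theorem xt_zR (h : Rul m D) (z : α) (hG : v .G = 0) (hC : v .C = 0) (hE : v .E = 0)
    (hW : v .W = 0) : XT m w e S (zR z) v p 0 (List.replicate (D.R * D.E * D.W) z) P P := by
  refine (xt_loop_const (c := m .C * (D.E * D.W)) hG (fun i p =>
    xt_loop_const (by simp [hC]) (fun j p => xt_zE h z (by simp [hE]) (by simp [hW])))).to rfl ?_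
  rw [h.mG, h.mC]
  unfold Dim.R
  congr 1
  ring

/-- `W - L` zeros -/
def zWL (z : α) : XP PR α J := seq (loop .L (inc .W)) (loop .W (emit z))

theorem xt_zWL (h : Rul m D) (z : α) (hLW : D.L < D.W) (hL : v .L = 0) (hW : v .W = 0) :
    XT m w e S (zWL z) v p 0 (List.replicate (D.W - D.L) z) P P := by
  intro o x hx
  refine ⟨x, hx, ?_⟩
  have k1 : ∀ i ≤ m .L, (fun s => (XP.eval m w e S (inc .W) s).set .L
      ((XP.eval m w e S (inc .W) s).v .L + 1))^[i] (⟨v, p, o, x⟩ : XS PR α σ) =
      ⟨update (update v .W i) .L i, p, o, x⟩ := by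
    intro i
    induction i with
    | zero =>
      intro _
      simp only [Function.iterate_zero, id_eq]
      rw [update_zero hW, update_zero hL]
    | succ i ih =>
      intro hi
      rw [Function.iterate_succ_apply', ih (by omega)]
      have h1 : (i + 1) % m .W = i + 1 := Nat.mod_eq_of_lt (by
        rw [h.mL] at hi
        rw [h.mW]
        omega)
      simp only [XP.eval, XS.set, XS.mk.injEq, and_true]
      funext r
      cases r <;> simp [Function.update, h1]
  have e1 : XP.eval m w e S (loop .L (inc .W)) (⟨v, p, o, x⟩ : XS PR α σ) =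
      ⟨update v .W D.L, p, o, x⟩ := by
    rw [XP.eval]
    simp only [hL, Nat.sub_zero]
    rw [k1 _ le_rfl, h.mL]
    simp only [XS.set, XS.mk.injEq, and_true]
    funext r
    cases r <;> simp [Function.update, hL]
  have k2 : ∀ j, (fun s => (XP.eval m w e S (emit z) s).set .W
      ((XP.eval m w e S (emit z) s).v .W + 1))^[j] (⟨update v .W D.L, p, o, x⟩ : XS PR α σ) =
      ⟨update v .W (D.L + j), p, o ++ List.replicate j z, x⟩ := by
    intro j
    induction j with
    | zero => simp
    | succ j ih =>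
      rw [Function.iterate_succ_apply', ih]
      simp only [XP.eval, XS.set, XS.mk.injEq, true_and, and_true]
      refine ⟨?_, by rw [List.replicate_succ', List.append_assoc]⟩
      rw [Function.update_idem, Function.update_self]
      rfl
  have e2 : XP.eval m w e S (loop .W (emit z)) (⟨update v .W D.L, p, o, x⟩ : XS PR α σ) =
      ⟨v, p, o ++ List.replicate (D.W - D.L) z, x⟩ := by
    rw [XP.eval]
    simp only [Function.update_self]
    rw [k2, h.mW]
    simp only [XS.set, Function.update_idem, XS.mk.injEq, and_true]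
    exact update_zero hW
  rw [zWL, XP.eval, e1, e2, Nat.add_zero]

/-- A slot. -/
def packSlot (z : α) : XP PR α J := seq (zWL z) (loop .L copy)

/-- A row. -/
def packRow (z : α) : XP PR α J :=
  seq (loop .G (seq (loop .Y (loop .E (packSlot z))) (loop .Y (zE z)))) (zE z)

/-- The program of the pack pass. -/
def packX (z : α) : XP PR α J :=
  loop .K (seq (loop .X (packRow z)) (seq (loop .X (zR z)) (loop .Q (zR z))))

theorem xt_packSlot (h : Rul m D) (z : α) (hLW : D.L < D.W) (hW : v .W = 0) (hL : v .L = 0) :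
    XT m w e S (packSlot z) v p D.L
      (List.replicate (D.W - D.L) z ++ seg w e p D.L) P P := by
  refine (XT.seq (xt_zWL h z hLW hL hW) (xt_loop_copy hL)).to ?_ ?_
  · rw [h.mL, Nat.zero_add]
  · rw [h.mL, Nat.add_zero]

theorem xt_packRow (h : Rul m D) (z : α) (hLW : D.L < D.W) (hG : v .G = 0) (hY : v .Y = 0)
    (hE : v .E = 0) (hL : v .L = 0) (hW : v .W = 0) :
    XT m w e S (packRow z) v p (D.G * (D.X * (D.E * D.L)))
      (((List.range D.G).flatMap fun g =>
        ((List.range D.X).flatMap fun y => (List.range D.E).flatMap fun i =>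
          List.replicate (D.W - D.L) z ++
            seg w e (p + g * (D.X * (D.E * D.L)) + y * (D.E * D.L) + i * D.L) D.L) ++
        List.replicate (D.X * (D.E * D.W)) z) ++ List.replicate (D.E * D.W) z) P P := by
  refine (XT.seq (xt_loop (n := D.X * (D.E * D.L)) (fun _ => P) (fun g =>
      ((List.range D.X).flatMap fun y => (List.range D.E).flatMap fun i =>
          List.replicate (D.W - D.L) z ++
            seg w e (p + g * (D.X * (D.E * D.L)) + y * (D.E * D.L) + i * D.L) D.L) ++
        List.replicate (D.X * (D.E * D.W)) z) hG (fun g _ => ?_))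
    (xt_zE h z hE hW)).to ?_ ?_
  · refine (XT.seq (xt_loop (n := D.E * D.L) (fun _ => P) (fun y =>
        (List.range D.E).flatMap fun i =>
          List.replicate (D.W - D.L) z ++
            seg w e (p + g * (D.X * (D.E * D.L)) + y * (D.E * D.L) + i * D.L) D.L)
        (by simp [hY]) (fun y _ => ?_))
      (xt_loop_const (c := D.E * D.W) (by simp [hY])
        (fun i p => xt_zE h z (by simp [hE]) (by simp [hW])))).to ?_ ?_
    · refine (xt_loop (n := D.L) (fun _ => P) (fun i => List.replicate (D.W - D.L) z ++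
        seg w e (p + g * (D.X * (D.E * D.L)) + y * (D.E * D.L) + i * D.L) D.L)
        (by simp [hE]) (fun i _ => xt_packSlot h z hLW (by simp [hW]) (by simp [hL]))).to ?_ ?_
      · rw [h.mE]
      · rw [h.mE]
    · rw [h.mY, Nat.add_zero]
    · rw [h.mY]
  · rw [h.mG, Nat.add_zero]
  · rw [h.mG]

/-- The output of the pack pass. -/
def packOut (D : Dim) (w : List α) (e z : α) (p : ℕ) : List α :=
  (List.range D.K).flatMap fun k =>
    ((List.range D.X).flatMap fun x =>
      ((List.range D.G).flatMap fun g =>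
        ((List.range D.X).flatMap fun y => (List.range D.E).flatMap fun i =>
          List.replicate (D.W - D.L) z ++
            seg w e (p + k * (D.X * (D.G * (D.X * (D.E * D.L)))) +
              x * (D.G * (D.X * (D.E * D.L))) + g * (D.X * (D.E * D.L)) +
              y * (D.E * D.L) + i * D.L) D.L) ++
        List.replicate (D.X * (D.E * D.W)) z) ++ List.replicate (D.E * D.W) z) ++
    (List.replicate (D.X * (D.R * D.E * D.W)) z ++ List.replicate (D.Q * (D.R * D.E * D.W)) z)

theorem xt_packX (h : Rul m D) (z : α) (hLW : D.L < D.W) (hv : ∀ r, v r = 0) :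
    XT m w e S (packX z) v p (D.K * (D.X * (D.G * (D.X * (D.E * D.L)))))
      (packOut D w e z p) P P := by
  unfold packOut packX
  refine (xt_loop (n := D.X * (D.G * (D.X * (D.E * D.L)))) (fun _ => P) (fun k =>
    ((List.range D.X).flatMap fun x =>
      ((List.range D.G).flatMap fun g =>
        ((List.range D.X).flatMap fun y => (List.range D.E).flatMap fun i =>
          List.replicate (D.W - D.L) z ++
            seg w e (p + k * (D.X * (D.G * (D.X * (D.E * D.L)))) +
              x * (D.G * (D.X * (D.E * D.L))) + g * (D.X * (D.E * D.L)) +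
              y * (D.E * D.L) + i * D.L) D.L) ++
        List.replicate (D.X * (D.E * D.W)) z) ++ List.replicate (D.E * D.W) z) ++
    (List.replicate (D.X * (D.R * D.E * D.W)) z ++
      List.replicate (D.Q * (D.R * D.E * D.W)) z)) (hv _) (fun k _ => ?_)).to ?_ ?_
  · refine (XT.seq (xt_loop (n := D.G * (D.X * (D.E * D.L))) (fun _ => P) (fun x =>
      ((List.range D.G).flatMap fun g =>
        ((List.range D.X).flatMap fun y => (List.range D.E).flatMap fun i =>
          List.replicate (D.W - D.L) z ++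
            seg w e (p + k * (D.X * (D.G * (D.X * (D.E * D.L)))) +
              x * (D.G * (D.X * (D.E * D.L))) + g * (D.X * (D.E * D.L)) +
              y * (D.E * D.L) + i * D.L) D.L) ++
        List.replicate (D.X * (D.E * D.W)) z) ++ List.replicate (D.E * D.W) z)
        (by simp [hv]) (fun x _ => ?_))
      (XT.seq (xt_loop_const (c := D.R * D.E * D.W) (by simp [hv])
          (fun i p => xt_zR h z (by simp [hv]) (by simp [hv]) (by simp [hv]) (by simp [hv])))
        (xt_loop_const (c := D.R * D.E * D.W) (by simp [hv])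
          (fun i p => xt_zR h z (by simp [hv]) (by simp [hv]) (by simp [hv])
            (by simp [hv]))))).to ?_ ?_
    · exact xt_packRow h z hLW (by simp [hv]) (by simp [hv]) (by simp [hv]) (by simp [hv])
        (by simp [hv])
    · rw [h.mX, Nat.add_zero]
    · rw [h.mX, h.mQ]
  · rw [h.mK]
  · rw [h.mK]

/-! The output is the specified one. -/

theorem seg_inputBits (bit : Bool → α) (e : α) (D : Dim)
    (V : ℕ → ℕ → ℕ → ℕ → ℕ → List Bool)
    (hV : ∀ k < D.K, ∀ x < D.X, ∀ g < D.G, ∀ y < D.X, ∀ i < D.E, (V k x g y i).length = D.L)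
    (k x g y i : ℕ) (hk : k < D.K) (hx : x < D.X) (hg : g < D.G) (hy : y < D.X) (hi : i < D.E) :
    seg ((inputBits D V).map bit) e (k * (D.X * (D.G * (D.X * (D.E * D.L)))) +
      x * (D.G * (D.X * (D.E * D.L))) + g * (D.X * (D.E * D.L)) + y * (D.E * D.L) + i * D.L)
      D.L = (V k x g y i).map bit := by
  have l0 : ∀ k < D.K, ∀ x < D.X, ∀ g < D.G, ∀ y < D.X, ((List.range D.E).flatMap fun i =>
      (V k x g y i).map bit).length = D.E * D.L := by
    intro k hk x hx g hg y hy
    refine H525.length_flatMap_const _ _ _ (fun i hi => ?_)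
    rw [List.length_map]
    exact hV k hk x hx g hg y hy i hi
  have l1 : ∀ k < D.K, ∀ x < D.X, ∀ g < D.G, ((List.range D.X).flatMap fun y =>
      (List.range D.E).flatMap fun i => (V k x g y i).map bit).length = D.X * (D.E * D.L) :=
    fun k hk x hx g hg => H525.length_flatMap_const _ _ _ (fun y hy => l0 k hk x hx g hg y hy)
  have l2 : ∀ k < D.K, ∀ x < D.X, ((List.range D.G).flatMap fun g => (List.range D.X).flatMap
      fun y => (List.range D.E).flatMap fun i => (V k x g y i).map bit).length =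
        D.G * (D.X * (D.E * D.L)) :=
    fun k hk x hx => H525.length_flatMap_const _ _ _ (fun g hg => l1 k hk x hx g hg)
  have l3 : ∀ k < D.K, ((List.range D.X).flatMap fun x => (List.range D.G).flatMap fun g =>
      (List.range D.X).flatMap fun y => (List.range D.E).flatMap fun i =>
        (V k x g y i).map bit).length = D.X * (D.G * (D.X * (D.E * D.L))) :=
    fun k hk => H525.length_flatMap_const _ _ _ (fun x hx => l2 k hk x hx)
  have b0 : i * D.L + D.L ≤ D.E * D.L := by
    have := Nat.mul_le_mul_right D.L (Nat.succ_le_of_lt hi)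
    rwa [Nat.succ_mul] at this
  have b1 : y * (D.E * D.L) + D.E * D.L ≤ D.X * (D.E * D.L) := by
    have := Nat.mul_le_mul_right (D.E * D.L) (Nat.succ_le_of_lt hy)
    rwa [Nat.succ_mul] at this
  have b2 : g * (D.X * (D.E * D.L)) + D.X * (D.E * D.L) ≤ D.G * (D.X * (D.E * D.L)) := by
    have := Nat.mul_le_mul_right (D.X * (D.E * D.L)) (Nat.succ_le_of_lt hg)
    rwa [Nat.succ_mul] at this
  have b3 : x * (D.G * (D.X * (D.E * D.L))) + D.G * (D.X * (D.E * D.L)) ≤
      D.X * (D.G * (D.X * (D.E * D.L))) := by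
    have := Nat.mul_le_mul_right (D.G * (D.X * (D.E * D.L))) (Nat.succ_le_of_lt hx)
    rwa [Nat.succ_mul] at this
  unfold inputBits
  simp only [List.map_flatMap]
  rw [Nat.add_assoc, Nat.add_assoc, Nat.add_assoc]
  rw [seg_flatMap _ _ _ k _ _ hk l3 (by omega)]
  rw [seg_flatMap _ _ _ x _ _ hx (fun x hx => l2 k hk x hx) (by omega)]
  rw [seg_flatMap _ _ _ g _ _ hg (fun g hg => l1 k hk x hx g hg) (by omega)]
  rw [seg_flatMap _ _ _ y _ _ hy (fun y hy => l0 k hk x hx g hg y hy) (by omega)]
  have := seg_flatMap (fun i => (V k x g y i).map bit) D.L D.E i 0 D.L hi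
    (fun i hi => by rw [List.length_map]; exact hV k hk x hx g hg y hy i hi) (by omega) e
  rw [Nat.add_zero] at this
  rw [this]
  exact seg_self _ _ _ (by rw [List.length_map]; exact hV k hk x hx g hg y hy i hi)

theorem packOut_eq (bit : Bool → α) (e : α) (D : Dim) (V : ℕ → ℕ → ℕ → ℕ → ℕ → List Bool)
    (hV : ∀ k < D.K, ∀ x < D.X, ∀ g < D.G, ∀ y < D.X, ∀ i < D.E, (V k x g y i).length = D.L) :
    packOut D ((inputBits D V).map bit) e (bit false) 0 = (packBits D V).map bit := by
  unfold packOut packBits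
  rw [List.map_flatMap]
  apply flatMap_range_congr
  intro k hk
  rw [List.map_append, List.map_flatMap, map_zeros]
  have e1 : (D.X + D.Q) * D.R * D.E * D.W =
      D.X * (D.R * D.E * D.W) + D.Q * (D.R * D.E * D.W) := by ring
  rw [e1, List.replicate_append_replicate]
  congr 1
  apply flatMap_range_congr
  intro x hx
  rw [List.map_append, List.map_flatMap, map_zeros]
  congr 1
  apply flatMap_range_congr
  intro g hg
  rw [List.map_append, List.map_flatMap, map_zeros, Nat.mul_assoc]
  congr 1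
  apply flatMap_range_congr
  intro y hy
  rw [List.map_flatMap]
  apply flatMap_range_congr
  intro i hi
  rw [List.map_append, map_zeros, Nat.zero_add,
    seg_inputBits bit e D V hV k x g y i hk hx hg hy hi]

/-! Cost. -/

theorem bd_loop_le {F : Type} {m : F → ℕ} {cj : J → ℕ} {r : F} {a : XP F α J} {c t : ℕ}
    (ht : 1 ≤ t) (hr : 1 ≤ m r) (h : bd m cj a ≤ c * t) :
    bd m cj (loop r a) ≤ (c + 4) * (m r * t) := by
  rw [bd]
  have h1 : m r * (bd m cj a + 2) ≤ m r * ((c + 2) * t) :=
    Nat.mul_le_mul_left _ (by nlinarith)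
  have h2 : 1 ≤ m r * t := Nat.mul_pos hr ht
  calc m r * (bd m cj a + 2) + 2 ≤ m r * ((c + 2) * t) + 2 * (m r * t) := by omega
    _ = (c + 4) * (m r * t) := by ring

/-- Positivity of the dimensions. -/
structure Pos (D : Dim) : Prop where
  hK : 1 ≤ D.K
  hX : 1 ≤ D.X
  hG : 1 ≤ D.G
  hE : 1 ≤ D.E
  hL : 1 ≤ D.L
  hLW : D.L < D.W
  hQ : 1 ≤ D.Q

theorem Pos.hR (h : Pos D) : 1 ≤ D.R := by
  unfold Dim.R
  exact Nat.mul_pos (Nat.mul_pos (by norm_num) h.hX) h.hG

section cost

variable {cj : J → ℕ} (h : Rul m D) (hD : Pos D) (z : α)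

include h hD

theorem bd_zE : bd m cj (zE z) ≤ 10 * (D.E * D.W) := by
  have hW : 1 ≤ D.W := by have := hD.hLW; omega
  have h1 : bd m cj (loop PR.W (emit z) : XP PR α J) ≤ 6 * D.W := by
    simp only [bd, h.mW]
    omega
  have := bd_loop_le (m := m) (r := PR.E) hW (by rw [h.mE]; exact hD.hE) h1
  rw [h.mE] at this
  exact this

theorem bd_zR : bd m cj (zR z) ≤ 18 * (D.R * (D.E * D.W)) := by
  have hW : 1 ≤ D.W := by have := hD.hLW; omega
  have hEW : 1 ≤ D.E * D.W := Nat.mul_pos hD.hE hW
  have h1 := bd_zE (cj := cj) h hD z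
  have h2 := bd_loop_le (m := m) (r := PR.C) hEW (by rw [h.mC]; have := hD.hX; omega) h1
  have h3 := bd_loop_le (m := m) (r := PR.G) (Nat.mul_pos (by rw [h.mC]; have := hD.hX; omega) hEW)
    (by rw [h.mG]; exact hD.hG) h2
  rw [h.mG, h.mC] at h3
  refine h3.trans (le_of_eq ?_)
  unfold Dim.R
  ring

theorem bd_packRow : bd m cj (packRow z) ≤ 56 * (D.G * (D.X * (D.E * D.W))) := by
  have hW : 1 ≤ D.W := by have := hD.hLW; omega
  have hEW : 1 ≤ D.E * D.W := Nat.mul_pos hD.hE hW
  have hXEW : 1 ≤ D.X * (D.E * D.W) := Nat.mul_pos hD.hX hEW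
  have h1 := bd_zE (cj := cj) h hD z
  have h2 : bd m cj (packSlot z : XP PR α J) ≤ 20 * D.W := by
    simp only [packSlot, zWL, bd, h.mW, h.mL]
    have := hD.hLW
    omega
  have h3 := bd_loop_le (m := m) (r := PR.E) hW (by rw [h.mE]; exact hD.hE) h2
  rw [h.mE] at h3
  have h4 := bd_loop_le (m := m) (r := PR.Y) hEW (by rw [h.mY]; exact hD.hX) h3
  rw [h.mY] at h4
  have h5 := bd_loop_le (m := m) (r := PR.Y) hEW (by rw [h.mY]; exact hD.hX) h1
  rw [h.mY] at h5
  have h6 := bd_loop_le (m := m) (cj := cj) (r := PR.G) (c := 42) (t := D.X * (D.E * D.W))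
    (a := seq (loop .Y (loop .E (packSlot z))) (loop .Y (zE z)))
    hXEW (by rw [h.mG]; exact hD.hG) (by rw [bd]; omega)
  rw [h.mG] at h6
  have h7 : D.E * D.W ≤ D.G * (D.X * (D.E * D.W)) :=
    (Nat.le_mul_of_pos_left _ hD.hX).trans (Nat.le_mul_of_pos_left _ hD.hG)
  unfold packRow
  rw [bd]
  omega

theorem bd_packX : bd m cj (packX z) ≤ 80 * (D.K * ((D.X + D.Q) * (D.R * (D.E * D.W)))) := by
  have hW : 1 ≤ D.W := by have := hD.hLW; omega
  have hEW : 1 ≤ D.E * D.W := Nat.mul_pos hD.hE hW
  have hXEW : 1 ≤ D.X * (D.E * D.W) := Nat.mul_pos hD.hX hEW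
  have hREW : 1 ≤ D.R * (D.E * D.W) := Nat.mul_pos hD.hR hEW
  have h1 := bd_zR (cj := cj) h hD z
  have h2 := bd_packRow (cj := cj) h hD z
  have h3 := bd_loop_le (m := m) (r := PR.X) (Nat.mul_pos hD.hG hXEW)
    (by rw [h.mX]; exact hD.hX) h2
  have h4 := bd_loop_le (m := m) (r := PR.X) hREW (by rw [h.mX]; exact hD.hX) h1
  have h5 := bd_loop_le (m := m) (r := PR.Q) hREW (by rw [h.mQ]; exact hD.hQ) h1
  rw [h.mX] at h3 h4
  rw [h.mQ] at h5
  have h6 : D.X * (D.R * (D.E * D.W)) = 2 * (D.X * (D.G * (D.X * (D.E * D.W)))) := by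
    unfold Dim.R
    ring
  have h7 : (D.X + D.Q) * (D.R * (D.E * D.W)) =
      D.X * (D.R * (D.E * D.W)) + D.Q * (D.R * (D.E * D.W)) := by ring
  have h8 := bd_loop_le (m := m) (cj := cj) (r := PR.K) (c := 76)
    (t := (D.X + D.Q) * (D.R * (D.E * D.W)))
    (a := seq (loop .X (packRow z)) (seq (loop .X (zR z)) (loop .Q (zR z))))
    (Nat.mul_pos (by have := hD.hX; omega) hREW) (by rw [h.mK]; exact hD.hK) (by
      rw [bd, bd, h7]
      omega)
  rw [h.mK] at h8
  exact h8

end cost

/-! The pass. -/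

theorem packX_WF (z : α) : (packX z : XP PR α J).WF := by
  simp [packX, packRow, packSlot, zWL, zR, zE, WF, writes]

theorem packX_marks (z : α) : (packX z : XP PR α J).marks = ∅ := by
  simp [packX, packRow, packSlot, zWL, zR, zE, marks]

/-- The pack pass. -/
def packPass {M F α : Type} [DecidableEq F] [DecidableEq α] (I O : F) (ρ : PR → F)
    (bit : Bool → α) (one mk e : α) : Prog M F α :=
  passX (J := Empty) I O one mk e (fun j => j.elim) (XP.map ρ (packX (bit false)))

/-- The `Run` statement of the pack pass. -/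
theorem run_pack {M F α : Type} [DecidableEq F] [DecidableEq α] {d : α} (D : Dim) (hD : Pos D)
    (V : ℕ → ℕ → ℕ → ℕ → ℕ → List Bool)
    (hV : ∀ k < D.K, ∀ x < D.X, ∀ g < D.G, ∀ y < D.X, ∀ i < D.E, (V k x g y i).length = D.L)
    (bit : Bool → α) (one mk e : α) (hmk : one ≠ mk) (I O : F) (hIO : O ≠ I) (ρ : PR → F)
    (hρ : Function.Injective ρ) (hρI : ∀ r, ρ r ≠ I) (hρO : ∀ r, ρ r ≠ O) (mem : M)
    (z : F → Zip α) (m : PR → ℕ) (hm : Rul m D)
    (hzI : z I = ⟨[], (inputBits D V).map bit⟩) (hzO : z O = ⟨[], []⟩)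
    (hz : ∀ r, ∃ c, z (ρ r) = ⟨[], c⟩ ∧ c.length = m r) :
    Prog.Run d (packPass I O ρ bit one mk e) ⟨mem, z⟩
      (80 * (D.K * ((D.X + D.Q) * (D.R * (D.E * D.W)))) + 2)
      ⟨mem, Function.update z O ⟨[], (packBits D V).map bit⟩⟩ := by
  have hpos : ∀ r, 0 < m r := by
    intro r
    have h1 := hD.hK
    have h2 := hD.hX
    have h3 := hD.hG
    have h4 := hD.hE
    have h5 := hD.hL
    have h6 := hD.hLW
    have h7 := hD.hQ
    cases r
    · rw [hm.mK]; omega
    · rw [hm.mX]; omega
    · rw [hm.mY]; omega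
    · rw [hm.mC]; omega
    · rw [hm.mG]; omega
    · rw [hm.mE]; omega
    · rw [hm.mL]; omega
    · rw [hm.mW]; omega
    · rw [hm.mQ]; omega
  obtain ⟨x', _, hx'⟩ := xt_packX (S := (⟨fun j => j.elim, fun j => j.elim, fun j => j.elim⟩ :
    XSem α Empty Unit)) (w := (inputBits D V).map bit) (e := e) (P := fun _ => True) (p := 0) hm
    (bit false) hD.hLW (v := fun _ => 0) (fun _ => rfl) [] () trivial
  have hrun := XP.run_passX (d := d) (M := M) (σ := Unit) ρ hρ (packX (bit false))
    (packX_WF _) I O hIO ∅ (by simp) (by simp) hρI hρO (by simp) one mk e hmk mem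
    (fun _ _ => ⟨[], []⟩) _ (fun j => j.elim) (fun j => j.elim) _ (fun j => j.elim) z m hzI hzO
    (by
      intro r _
      obtain ⟨c, h1, h2⟩ := hz r
      refine ⟨c, h1, h2, fun h => ?_⟩
      rw [packX_marks] at h
      simp at h) (fun r _ => hpos r) (by simp) hx'
  have hb := bd_packX (cj := fun j : Empty => (j.elim : ℕ)) hm hD (bit false)
  have hfin : (fun f => if f = O then (⟨[], [] ++ packOut D ((inputBits D V).map bit) e
      (bit false) 0⟩ : Zip α) else if f ∈ (∅ : Finset F) then ⟨[], []⟩ else z f) =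
      Function.update z O ⟨[], (packBits D V).map bit⟩ := by
    funext f
    by_cases hf : f = O
    · subst hf
      rw [Function.update_self, if_pos rfl, List.nil_append, packOut_eq bit e D V hV]
    · rw [Function.update_of_ne hf, if_neg hf]
      simp
  rw [hfin] at hrun
  exact Prog.Run.mono hrun (Nat.add_le_add_right hb 2)

end Vale.Agent.P338.R2.H806.Fp
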