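import Vale.Agent.P338.R2.H784.Fp.RoundOld
import Vale.Agent.P338.R2.H101.Ph

/-!
P338, stage 2: repetition of the phases over `F_p` as long as the height is at least `32`.
-/

namespace Vale.Agent.P338.R2.H806.Fp

open Vale.Agent.P338.R2.H898
open Vale.Agent.P338.R2.H784
open Vale.Agent.P338.R2.H784.Fp (PhSpec)
open Vale.Agent.P338.R2.H101 (Lp)
open Vale.Agent.P338.R2.H525 (dBits)

variable {M F α : Type} [DecidableEq F] {d u : α}

theorem Lp.mono {T₀ : ℕ → ℕ} {c c' l k h h' V : ℕ} (H : Lp T₀ c l k h h' V) (hc : c ≤ c') :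
    Lp T₀ c' l k h h' V := by
  induction H with
  | zero h => exact .zero h
  | succ _ h1 h2 hK ih => exact .succ ih h1 h2 (hK.trans (Nat.mul_le_mul_right _ hc))

/-- A phase in front of the others. -/
theorem Lp.cons {T₀ : ℕ → ℕ} {c l k h h₂ h' K V : ℕ} (h1 : 32 ≤ h) (h2 : h₂ ≤ Nat.log 2 h + 3)
    (hK : K * (h + 1) ≤ c * 4 ^ l) (H : Lp T₀ c l k h₂ h' V) :
    Lp T₀ c l (k + 1) h h' (K * (T₀ h + h) + V) := by
  induction H with
  | zero h3 =>
    have := Lp.succ (.zero (T₀ := T₀) (c := c) (l := l) h) h1 h2 hK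
    have e : 0 + K * (T₀ h + h) = K * (T₀ h + h) + 0 := by ring
    rw [e] at this
    exact this
  | @succ k h₀ h₁ h₃ K' V _ g1 g2 gK ih =>
    have := Lp.succ (ih h2) g1 g2 gK
    rw [Nat.add_assoc (K * _) V] at this
    exact this

theorem log_dec {h h2 : ℕ} (h32 : 32 ≤ h) (h1 : h2 ≤ Nat.log 2 h + 3) : h2 < h := by
  have h3 : Nat.log 2 h < h - 3 := by
    rw [Nat.log_lt_iff_lt_pow (by norm_num) (by omega)]
    obtain ⟨k, rfl⟩ : ∃ k, h = k + 32 := ⟨h - 32, by omega⟩
    have e : k + 32 - 3 = k + 29 := by omega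
    rw [e, pow_add]
    have : k < 2 ^ k := Nat.lt_pow_self (by norm_num)
    have h5 : (32 : ℕ) ≤ 2 ^ 29 - 1 := by norm_num
    have h6 : 1 ≤ 2 ^ k := Nat.one_le_two_pow
    nlinarith
  omega

/-- `go := (k < |f|)`, where `go` is empty before; `f` is rewound. -/
def chkN (k : ℕ) (f go : F) (u : α) : Prog M F α :=
  .seq (op f .rew) (.seq (rep k (.ite (fun _ r => (r f).isSome) (op f .right) nop))
    (.seq (.ite (fun _ r => (r f).isSome) (op go (.write u)) nop) (op f .rew)))

theorem tri_chkN (k : ℕ) {f go : F} (hfg : f ≠ go) {s : Store M F α} {i j : ℕ}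
    (h : Len u i j (s.z f)) (hg : Len u 0 0 (s.z go)) :
    Tri d (chkN k f go u) s (2 * k + 5) (fun s' => Len u 0 (i + j) (s'.z f) ∧
      Len u 0 (b01 (k < i + j)) (s'.z go) ∧ Keep [f, go] s s') := by
  refine (Tri.seq (t' := 2 * k + 4) (tri_rew h) ?_).cost (by omega)
  rintro s1 ⟨h1, k1⟩
  have hrep := Tri.rep (d := d) k (.ite (fun _ r => (r f).isSome) (op f .right) nop)
    (fun n s' => Len u (min (i + j) n) (i + j - n) (s'.z f) ∧ Keep [f] s s') 2 (s := s1) ?_
    ⟨by simpa using h1, k1⟩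
  · refine (Tri.seq (t' := 3) hrep ?_).cost (by omega)
    rintro s2 ⟨h2, k2⟩
    have hg2 : Len u 0 0 (s2.z go) := k2.len (by simp [hfg.symm]) hg
    refine (Tri.seq (t := 2) (t' := 1) (Q := fun s' => s'.z f = s2.z f ∧
      Len u 0 (b01 (k < i + j)) (s'.z go) ∧ Keep [f, go] s s') (Tri.ite (t := 1) ?_ ?_) ?_)
    · intro hc
      rw [Store.reads, h2.peek_isSome] at hc
      simp at hc
      refine (tri_op go (.write u) s2).post ?_
      rintro s3 ⟨h3, k3⟩
      refine ⟨k3.z (by simp [hfg]), ?_, (k2.mono (by simp)).trans (k3.mono (by simp))⟩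
      rw [h3, hg2.eq_nil]
      have e : b01 (k < i + j) = 1 := by
        unfold b01
        rw [if_pos (by omega)]
      rw [e]
      rfl
    · intro hc
      rw [Store.reads, h2.peek_isSome] at hc
      simp at hc
      refine (Tri.of_run (run_nop s2.m s2.z) ?_)
      have e : b01 (k < i + j) = 0 := by
        unfold b01
        rw [if_neg (by omega)]
      rw [e]
      exact ⟨rfl, hg2, k2.mono (by simp)⟩
    · rintro s3 ⟨h3, h4, k4⟩
      rw [← h3] at h2
      refine (tri_rew h2).post ?_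
      rintro s4 ⟨h5, k5⟩
      refine ⟨?_, k5.len (by simp [hfg.symm]) h4, k4.trans (k5.mono (by simp))⟩
      have e : min (i + j) k + (i + j - k) = i + j := by omega
      rw [e] at h5
      exact h5
  · rintro n hn s2 ⟨h2, k2⟩
    refine Tri.ite (t := 1) ?_ ?_
    · intro hc
      rw [Store.reads, h2.peek_isSome] at hc
      simp at hc
      obtain ⟨j', hj'⟩ : ∃ j', i + j - n = j' + 1 := ⟨i + j - n - 1, by omega⟩
      rw [hj'] at h2
      refine (tri_right h2).post ?_
      rintro s3 ⟨h3, k3⟩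
      refine ⟨?_, k2.trans k3⟩
      have e1 : min (i + j) (n + 1) = min (i + j) n + 1 := by omega
      have e2 : i + j - (n + 1) = j' := by omega
      rw [e1, e2]
      exact h3
    · intro hc
      rw [Store.reads, h2.peek_isSome] at hc
      simp at hc
      refine (Tri.of_run (run_nop s2.m s2.z) ⟨?_, k2⟩)
      have e1 : min (i + j) (n + 1) = min (i + j) n := by omega
      have e2 : i + j - (n + 1) = i + j - n := by omega
      rw [e1, e2]
      exact h2

/-- Phases as long as the height is at least `32`. -/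
def starLoop (hh go : F) (u : α) (p : Prog M F α) : Prog M F α :=
  .loop (fun _ r => (r go).isSome) (.seq (clr go) (.seq p (chkN 31 hh go u)))

/-- Phases as long as the height is at least `32`. -/
def starP (hh go : F) (u : α) (p : Prog M F α) : Prog M F α :=
  .seq (chkN 31 hh go u) (starLoop hh go u p)

/-- The state in the loop. -/
structure LS (j : TF → F) (bit : Bool → α) (u : α) (RR : Store M F α → Prop) (l n : ℕ)
    (X : ℕ → ℕ → Bool) (h g : ℕ) (s : Store M F α) : Prop where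
  el : Len u 0 l (s.z (j .el))
  hh : Len u 0 h (s.z (j .hh))
  nr : Len u 0 n (s.z (j .nr))
  dat : s.z (j .dat) = ⟨[], (dBits l h X).map bit⟩
  clk : Len u 0 0 (s.z (j .clk))
  go : Len u 0 g (s.z (j .go))
  rr : RR s

variable {bit : Bool → α} {j : TF → F} {p : Prog M F α} {RR : Store M F α → Prop}
  {TA T₀ : ℕ → ℕ} {c : ℕ}

theorem tri_starLoop (hp : PhSpec d u bit j p RR TA T₀ c) (hj : Function.Injective j)
    (hRR : ∀ s s' : Store M F α, RR s → s'.m = s.m → (∀ f, (∀ x, f ≠ j x) → s'.z f = s.z f) →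
      RR s')
    {l n : ℕ} {X : ℕ → ℕ → Bool} (hn : 576 * 4 ^ l ≤ n) :
    ∀ (h : ℕ) (s : Store M F α), h ≤ l → LS j bit u RR l n X h (b01 (31 < h)) s →
      ∃ k t h' V, h' < 32 ∧ Lp T₀ c l k h h' V ∧
        t ≤ (c + 140) * (k * (TA n + n + 4 ^ l) + V) + 1 ∧
        Tri d (starLoop (j .hh) (j .go) u p) s t (fun s' => LS j bit u RR l n X h' 0 s' ∧
          ∀ x, x ≠ .dat → x ≠ .hh → x ≠ .clk → x ≠ .go → s'.z (j x) = s.z (j x)) := by
  intro h
  induction h using Nat.strong_induction_on with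
  | _ h ih =>
    intro s hl hs
    by_cases h32 : 31 < h
    · have e : b01 (31 < h) = 1 := by unfold b01; rw [if_pos h32]
      rw [e] at hs
      have hgo : (s.reads (j .go)).isSome = true := by
        rw [Store.reads, hs.go.peek_isSome]
        rfl
      -- clear the flag
      obtain ⟨s1, hr1, hg1, k1⟩ := tri_clr (d := d) (j .go) s
      have hs1 : LS j bit u RR l n X h 0 s1 := by
        refine ⟨k1.len (by simp [hj.eq_iff]) hs.el, k1.len (by simp [hj.eq_iff]) hs.hh,
          k1.len (by simp [hj.eq_iff]) hs.nr, ?_, k1.len (by simp [hj.eq_iff]) hs.clk, hg1, ?_⟩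
        · rw [k1.z (by simp [hj.eq_iff])]
          exact hs.dat
        · exact hRR _ _ hs.rr k1.1 fun f hf => k1.z (by simp [hf])
      -- the phase
      obtain ⟨t1, h2, K, hK, ht1, hh1, hh2, _, s2, hr2, d2, g2, c2, k2,
        rr2⟩ := hp l h n X s1 hn hl hs1.el hs1.hh hs1.nr hs1.dat hs1.clk hs1.rr
      -- the flag
      obtain ⟨s3, hr3, g3, f3, k3⟩ := tri_chkN (d := d) (u := u) 31 (f := j .hh) (go := j .go)
        (fun h => by simpa using hj h) (s := s2) g2 (by
          rw [k2 .go (by decide) (by decide) (by decide)]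
          exact hs1.go)
      rw [Nat.zero_add] at g3 f3
      have hs3 : LS j bit u RR l n X h2 (b01 (31 < h2)) s3 := by
        refine ⟨?_, g3, ?_, ?_, k3.len (by simp [hj.eq_iff]) c2, f3, ?_⟩
        · refine k3.len (by simp [hj.eq_iff]) ?_
          rw [k2 _ (by decide) (by decide) (by decide)]
          exact hs1.el
        · refine k3.len (by simp [hj.eq_iff]) ?_
          rw [k2 _ (by decide) (by decide) (by decide)]
          exact hs1.nr
        · rw [k3.z (by simp [hj.eq_iff])]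
          exact d2
        · exact hRR _ _ rr2 k3.1 fun f hf => k3.z (by simp [hf])
      -- the rest
      have hh2' := hh2 (by omega)
      have hlt : h2 < h := log_dec (by omega) hh2'
      obtain ⟨k, t, h', V, hh', hPh, ht, s4, hr4, hs4, k4⟩ := ih h2 hlt s3 (by omega) hs3
      refine ⟨k + 1, _, h', K * (T₀ h + h) + V, hh', Lp.cons (by omega) hh2' hK hPh, ?_,
        s4, Prog.Run.loopT hgo (hr1.seq (hr2.seq hr3)) hr4, hs4, ?_⟩
      · have hD : 1 ≤ 4 ^ l := Nat.one_le_pow _ _ (by norm_num)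
        set D := TA n + n + 4 ^ l with hDdef
        have e1 : (c + 140) * ((k + 1) * D + (K * (T₀ h + h) + V)) + 1 =
            ((c + 140) * (k * D + V) + 1) + (c + 140) * (D + K * (T₀ h + h)) := by ring
        have e2 : (c + 140) * (D + K * (T₀ h + h)) = c * (D + K * (T₀ h + h)) +
            140 * (D + K * (T₀ h + h)) := by ring
        have e3 : 1 ≤ D := by omega
        rw [e1, e2]
        have e4 : 140 ≤ 140 * (D + K * (T₀ h + h)) := by omega
        omega
      · intro y q1 q2 q3 q4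
        rw [k4 y q1 q2 q3 q4, k3.z (by simp [hj.eq_iff, q2, q4]), k2 y q1 q2 q3,
          k1.z (by simp [hj.eq_iff, q4])]
    · have e : b01 (31 < h) = 0 := by unfold b01; rw [if_neg h32]
      rw [e] at hs
      refine ⟨0, 1, h, 0, by omega, .zero h, by simp, s, Prog.Run.loopF ?_, hs,
        fun _ _ _ _ _ => rfl⟩
      rw [Store.reads, hs.go.peek_isSome]
      rfl

/-- Specification of the phases. -/
def StarSpec (d u : α) (bit : Bool → α) (j : TF → F) (p : Prog M F α)
    (RR : Store M F α → Prop) (TA T₀ : ℕ → ℕ) (c : ℕ) : Prop :=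
  ∀ (l n : ℕ) (X : ℕ → ℕ → Bool) (s : Store M F α), 576 * 4 ^ l ≤ n →
    Len u 0 l (s.z (j .el)) → Len u 0 l (s.z (j .hh)) → Len u 0 n (s.z (j .nr)) →
    s.z (j .dat) = ⟨[], (dBits l l X).map bit⟩ → Len u 0 0 (s.z (j .clk)) →
    Len u 0 0 (s.z (j .go)) → RR s →
    ∃ k t h' V, h' < 32 ∧ Lp T₀ c l k l h' V ∧
      t ≤ c * ((k + 1) * (TA n + n + 4 ^ l) + V) ∧ Tri d p s t (fun s' =>
        s'.z (j .dat) = ⟨[], (dBits l h' X).map bit⟩ ∧
        Len u 0 h' (s'.z (j .hh)) ∧ Len u 0 0 (s'.z (j .clk)) ∧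
        (∀ x, x ≠ .dat → x ≠ .hh → x ≠ .clk → s'.z (j x) = s.z (j x)) ∧ RR s')

theorem starSpec (hp : PhSpec d u bit j p RR TA T₀ c) (hj : Function.Injective j)
    (hRR : ∀ s s' : Store M F α, RR s → s'.m = s.m → (∀ f, (∀ x, f ≠ j x) → s'.z f = s.z f) →
      RR s') :
    StarSpec d u bit j (starP (j .hh) (j .go) u p) RR TA T₀ (2 * c + 280) := by
  intro l n X s hn h1 h2 h3 h4 h5 h6 h7
  obtain ⟨s1, hr1, g1, f1, k1⟩ := tri_chkN (d := d) (u := u) 31 (f := j .hh) (go := j .go)
    (fun h => by simpa using hj h) (s := s) h2 h6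
  rw [Nat.zero_add] at g1 f1
  have hs1 : LS j bit u RR l n X l (b01 (31 < l)) s1 := by
    refine ⟨k1.len (by simp [hj.eq_iff]) h1, g1, k1.len (by simp [hj.eq_iff]) h3, ?_,
      k1.len (by simp [hj.eq_iff]) h5, f1, ?_⟩
    · rw [k1.z (by simp [hj.eq_iff])]
      exact h4
    · exact hRR _ _ h7 k1.1 fun f hf => k1.z (by simp [hf])
  obtain ⟨k, t, h', V, hh', hPh, ht, s2, hr2, hs2, k2⟩ := tri_starLoop hp hj hRR hn l s1
    le_rfl hs1
  refine ⟨k, _, h', V, hh', Lp.mono hPh (by omega), ?_, s2, hr1.seq hr2, hs2.dat, hs2.hh,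
    hs2.clk, ?_, hs2.rr⟩
  · have hD : 1 ≤ 4 ^ l := Nat.one_le_pow _ _ (by norm_num)
    set D := TA n + n + 4 ^ l with hDdef
    have e1 : (2 * c + 280) * ((k + 1) * D + V) = (c + 140) * (k * D + V) +
        ((c + 140) * (k * D + V) + (2 * c + 280) * D) := by ring
    have e2 : 280 ≤ (2 * c + 280) * D := by nlinarith
    rw [e1]
    omega
  · intro x q1 q2 q3
    by_cases hx : x = .go
    · subst hx
      rw [hs2.go.eq_nil, h6.eq_nil]
    · rw [k2 x q1 q2 q3 hx, k1.z (by simp [hj.eq_iff, q2, hx])]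

end Vale.Agent.P338.R2.H806.Fp
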