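import Vale.Agent.P338.R2.H898.XWord
import Vale.Agent.P338.R2.H806.Pack

/-!
Rules for evaluating loop programs with external instructions.
-/

namespace Vale.Agent.P338.R2.H806.Fp

open Vale.Agent.P338.R2.H898
open XP
open H806.LP (seg seg_one seg_add flatMap_seg_range' flatMap_replicate_range)
open Function (update)

variable {F α J σ : Type} [DecidableEq F] {m : F → ℕ} {w : List α} {e : α} {S : XSem α J σ}

/-- `a` does not change the registers `v`, moves the input position from `p` to `p + n`, appends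
`out` to the output, and the extra state satisfies `Q` afterwards if it satisfied `P` before. -/
def XT (m : F → ℕ) (w : List α) (e : α) (S : XSem α J σ) (a : XP F α J) (v : F → ℕ) (p n : ℕ)
    (out : List α) (P Q : σ → Prop) : Prop :=
  ∀ o x, P x → ∃ x', Q x' ∧ XP.eval m w e S a ⟨v, p, o, x⟩ = ⟨v, p + n, o ++ out, x'⟩

variable {a b : XP F α J} {v : F → ℕ} {p n n' : ℕ} {out out' : List α} {P P' Q Q' R : σ → Prop}

omit [DecidableEq F] in
theorem update_zero [DecidableEq F] {v : F → ℕ} {r : F} (h : v r = 0) : update v r 0 = v := by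
  rw [← h, Function.update_eq_self]

theorem XT.congr (h : XT m w e S a v p n out P Q) (hP : ∀ x, P' x → P x) (hn : n = n')
    (ho : out = out') (hQ : ∀ x, Q x → Q' x) : XT m w e S a v p n' out' P' Q' := by
  subst hn ho
  intro o x hx
  obtain ⟨x', h1, h2⟩ := h o x (hP x hx)
  exact ⟨x', hQ _ h1, h2⟩

theorem XT.to (h : XT m w e S a v p n out P Q) (hn : n = n') (ho : out = out') :
    XT m w e S a v p n' out' P Q := h.congr (fun _ h => h) hn ho (fun _ h => h)

theorem xt_emit (y : α) : XT m w e S (emit y : XP F α J) v p 0 [y] P P := by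
  intro o x hx
  exact ⟨x, hx, by simp [XP.eval]⟩

theorem xt_skip : XT m w e S (skip : XP F α J) v p 1 [] P P := by
  intro o x hx
  exact ⟨x, hx, by simp [XP.eval]⟩

theorem xt_copy : XT m w e S (copy : XP F α J) v p 1 (seg w e p 1) P P := by
  intro o x hx
  rw [seg_one]
  exact ⟨x, hx, by simp [XP.eval]⟩

theorem XT.seq (h : XT m w e S a v p n out P Q) (h' : XT m w e S b v (p + n) n' out' Q R) :
    XT m w e S (XP.seq a b) v p (n + n') (out ++ out') P R := by
  intro o x hx
  obtain ⟨x1, h1, e1⟩ := h o x hx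
  obtain ⟨x2, h2, e2⟩ := h' (o ++ out) x1 h1
  refine ⟨x2, h2, ?_⟩
  rw [XP.eval, e1, e2, Nat.add_assoc, List.append_assoc]

theorem xt_loop {r : F} (P : ℕ → σ → Prop) (out : ℕ → List α) (hv : v r = 0)
    (h : ∀ i < m r, XT m w e S a (update v r i) (p + i * n) n (out i) (P i) (P (i + 1))) :
    XT m w e S (loop r a) v p (m r * n) ((List.range (m r)).flatMap out) (P 0) (P (m r)) := by
  intro o x hx
  have key : ∀ i ≤ m r, ∃ x', P i x' ∧
      (fun s => (XP.eval m w e S a s).set r ((XP.eval m w e S a s).v r + 1))^[i] ⟨v, p, o, x⟩ =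
      ⟨update v r i, p + i * n, o ++ (List.range i).flatMap out, x'⟩ := by
    intro i
    induction i with
    | zero =>
      intro _
      refine ⟨x, hx, ?_⟩
      simp [update_zero hv]
    | succ i ih =>
      intro hi
      obtain ⟨u1, h1, e1⟩ := ih (by omega)
      obtain ⟨u2, h2, e2⟩ := h i (by omega) (o ++ (List.range i).flatMap out) u1 h1
      refine ⟨u2, h2, ?_⟩
      rw [Function.iterate_succ_apply', e1]
      simp only [e2, XS.set, Function.update_idem, Function.update_self]
      simp only [XS.mk.injEq, true_and, and_true]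
      refine ⟨by ring, ?_⟩
      rw [List.range_succ, List.flatMap_append]
      simp
  obtain ⟨u', h1, e1⟩ := key _ le_rfl
  refine ⟨u', h1, ?_⟩
  rw [XP.eval]
  simp only [hv, Nat.sub_zero]
  rw [e1]
  simp [XS.set, update_zero hv]

/-- Loops emitting a constant. -/
theorem xt_loop_const {r : F} {c : ℕ} {y : α} (hv : v r = 0)
    (h : ∀ i p, XT m w e S a (update v r i) p 0 (List.replicate c y) P P) :
    XT m w e S (loop r a) v p 0 (List.replicate (m r * c) y) P P :=
  (xt_loop (n := 0) (fun _ => P) (fun _ => List.replicate c y) hv (fun i _ => h i _)).to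
    (by simp) (flatMap_replicate_range c y _)

/-- Loops emitting one symbol. -/
theorem xt_loop_emit {r : F} {y : α} (hv : v r = 0) :
    XT m w e S (loop r (emit y) : XP F α J) v p 0 (List.replicate (m r) y) P P :=
  (xt_loop_const (c := 1) hv (fun _ _ => xt_emit y)).to rfl (by rw [Nat.mul_one])

/-- Loops copying the input. -/
theorem xt_loop_copy {r : F} (hv : v r = 0) :
    XT m w e S (loop r copy : XP F α J) v p (m r) (seg w e p (m r)) P P := by
  refine (xt_loop (n := 1) (fun _ => P) (fun i => seg w e (p + i * 1) 1) hv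
    (fun i _ => xt_copy)).to (Nat.mul_one _) ?_
  have h2 := flatMap_seg_range' w e p 0 (m r) 1
  simp only [Nat.sub_zero] at h2
  rw [List.range_eq_range', h2, Nat.mul_one]

section word

variable {V : Type} [DecidableEq V] {w : List Bool} {e : Bool} {W L pp μ : ℕ}
  {v : F → ℕ} {P Q : (V → ℕ) → Prop}

theorem xt_cp {i j : V} (h : ∀ u, P u → Q (update u i (u j))) :
    XT m w e (wsem W L pp μ) (ext (.cp i j)) v p 0 [] P Q := by
  intro o x hx
  exact ⟨_, h x hx, by rw [eval_cp]; simp⟩

theorem xt_one {i : V} (h : ∀ u, P u → Q (update u i 1)) :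
    XT m w e (wsem W L pp μ) (ext (.one i)) v p 0 [] P Q := by
  intro o x hx
  exact ⟨_, h x hx, by rw [eval_one]; simp⟩

theorem xt_mul {i j k : V} (h : ∀ u, P u → Q (update u i (H525.Fp.mmN W pp μ (u j) (u k)))) :
    XT m w e (wsem W L pp μ) (ext (.mul i j k)) v p 0 [] P Q := by
  intro o x hx
  exact ⟨_, h x hx, by rw [eval_mul]; simp⟩

theorem xt_wr {i : V} {c : ℕ} (h : ∀ u, P u → u i = c) :
    XT m w e (wsem W L pp μ) (ext (.wr i)) v p 0 (H778.bits W c) P P := by
  intro o x hx
  refine ⟨x, hx, ?_⟩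
  rw [eval_wr, ← h x hx]
  simp

end word

end Vale.Agent.P338.R2.H806.Fp
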